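import Vale.Agent.P039.H192.Euler
import Vale.Agent.P039.Bz.Stmt

/-! Counting: the complement of the perfect matching is one cycle. -/

namespace Vale.Agent.P039.H192

open Finset Vale.Agent.P039.Bn

variable {B W V : Type}

theorem ncard_filter {α : Type} [Fintype α] (A : Set α) [DecidablePred (· ∈ A)] :
    A.ncard = (univ.filter (· ∈ A)).card := by
  rw [← Set.ncard_coe_finset]
  congr 1
  ext a
  simp

theorem sum_three (g : Fin 3 → ℕ) (k : Fin 3) : ∑ j, g j = g k + g (k + 1) + g (k + 2) := by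
  rw [Fin.sum_univ_three]
  have e1 : (0 : Fin 3) + 1 = 1 := by decide
  have e2 : (0 : Fin 3) + 2 = 2 := by decide
  have e3 : (1 : Fin 3) + 1 = 2 := by decide
  have e4 : (1 : Fin 3) + 2 = 0 := by decide
  have e5 : (2 : Fin 3) + 1 = 0 := by decide
  have e6 : (2 : Fin 3) + 2 = 1 := by decide
  fin_cases k
  · show _ = g 0 + g (0 + 1) + g (0 + 2)
    rw [e1, e2]
  · show _ = g 1 + g (1 + 1) + g (1 + 2)
    rw [e3, e4]; omega
  · show _ = g 2 + g (2 + 1) + g (2 + 2)
    rw [e5, e6]; omega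

/-- The vertices reached from `b₀` without the matching. -/
def stepR (M : PMap B W V) (m : B → Fin 3) (x y : B ⊕ W) : Prop :=
  ∃ b j, j ≠ m b ∧ x = Sum.inl b ∧ y = Sum.inr (M.e j b)

theorem count_main [Fintype B] [Fintype W] [Fintype V] (M : PMap B W V) (hM : M.Conn)
    (m : B → Fin 3) (hm : Function.Bijective (fun b => M.e (m b) b))
    (f : B → Fin 3) (hfm : ∀ b, f b ≠ m b) (hown : Function.Injective (fun b => M.c (f b) b))
    (b₀ : B) (r₁ r₂ : V) (hr : r₁ ≠ r₂) (hr1 : ∃ j, M.c j b₀ = r₁) (hr2 : ∃ j, M.c j b₀ = r₂)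
    (h1 : ∀ b, M.c (f b) b ≠ r₁) (h2 : ∀ b, M.c (f b) b ≠ r₂)
    (S : Set B) (T : Set W) (hcl : ∀ b j, j ≠ m b → (b ∈ S ↔ M.e j b ∈ T)) (hb₀ : b₀ ∈ S)
    (hcn : ∀ (p : B → ℚ) (q : W → ℚ), (∀ b j, b ∈ S → M.e j b ∈ T → p b = q (M.e j b)) →
      ∃ c, (∀ b ∈ S, p b = c) ∧ ∀ w ∈ T, q w = c) :
    S = Set.univ ∧ T = Set.univ := by
  classical
  by_contra hcon
  have hne : S ≠ Set.univ ∨ T ≠ Set.univ := by
    by_contra hh
    push Not at hh
    exact hcon hh
  have heul := euler_sub M hM S T hcn hne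
  set sC := (univ.filter (· ∈ S)).card with hsC
  set tC := (univ.filter (· ∈ T)).card with htC
  set eX := (univ.filter (fun b => b ∈ S ∧ M.e (m b) b ∈ T)).card with heX
  -- (1) |T| = |S|
  have hTS : tC = sC := by
    have e0 : ∀ b, ∑ j, (if M.e j b ∈ T then 1 else 0) =
        2 * (if b ∈ S then 1 else 0) + (if M.e (m b) b ∈ T then 1 else 0) := by
      intro b
      rw [sum_three _ (m b)]
      have h3 := hcl b (m b + 1) (fne1 _)
      have h4 := hcl b (m b + 2) (fne2 _)
      by_cases hb : b ∈ S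
      · rw [if_pos (h3.1 hb), if_pos (h4.1 hb), if_pos hb]; omega
      · rw [if_neg (fun h => hb (h3.2 h)), if_neg (fun h => hb (h4.2 h)), if_neg hb]; omega
    have e1 : ∑ b, ∑ j, (if M.e j b ∈ T then 1 else 0) = 3 * tC := by
      rw [Finset.sum_comm]
      have : ∀ j : Fin 3, ∑ b, (if M.e j b ∈ T then 1 else 0) = tC := by
        intro j
        rw [Equiv.sum_comp (M.e j) (fun w => if w ∈ T then 1 else 0)]
        rw [htC, Finset.card_filter]
      simp_rw [this]
      simp
    have e2 : ∑ b, (if M.e (m b) b ∈ T then 1 else 0) = tC := by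
      rw [Function.Bijective.sum_comp hm (fun w => if w ∈ T then 1 else 0)]
      rw [htC, Finset.card_filter]
    have e3 : ∑ b, (if b ∈ S then 1 else 0) = sC := by
      rw [hsC, Finset.card_filter]
    simp_rw [e0] at e1
    rw [Finset.sum_add_distrib, ← Finset.mul_sum, e2, e3] at e1
    omega
  -- (2) the edges inside
  have hE : (inE M S T).ncard = 2 * sC + eX := by
    rw [ncard_filter, Finset.card_filter, Fintype.sum_prod_type]
    have e0 : ∀ b, ∑ j, (if (b, j) ∈ inE M S T then 1 else 0) =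
        2 * (if b ∈ S then 1 else 0) + (if b ∈ S ∧ M.e (m b) b ∈ T then 1 else 0) := by
      intro b
      rw [sum_three _ (m b)]
      have h3 := hcl b (m b + 1) (fne1 _)
      have h4 := hcl b (m b + 2) (fne2 _)
      by_cases hb : b ∈ S
      · have i1 : (b, m b + 1) ∈ inE M S T := ⟨hb, h3.1 hb⟩
        have i2 : (b, m b + 2) ∈ inE M S T := ⟨hb, h4.1 hb⟩
        rw [if_pos i1, if_pos i2, if_pos hb]
        by_cases hw : M.e (m b) b ∈ T
        · have i3 : (b, m b) ∈ inE M S T := ⟨hb, hw⟩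
          rw [if_pos i3, if_pos ⟨hb, hw⟩]
        · rw [if_neg (fun h => hw h.2), if_neg (fun h => hw h.2)]
      · rw [if_neg (fun h => hb h.1), if_neg (fun h => hb h.1), if_neg (fun h => hb h.1),
          if_neg hb, if_neg (fun h => hb h.1)]
    simp_rw [e0]
    rw [Finset.sum_add_distrib, ← Finset.mul_sum, heX, Finset.card_filter, hsC,
      Finset.card_filter]
  -- (3) boundary faces
  let D : Finset B := univ.filter (fun b => ¬ (b ∈ S ↔ M.e (m b) b ∈ T))
  let P : Finset (B × Fin 3) := univ.filter (fun x => x.1 ∈ D ∧ x.2 ≠ m x.1)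
  let cc : B × Fin 3 → V := fun x => M.c x.2 x.1
  let bd : Finset V := P.image cc
  have memD : ∀ b, b ∈ D ↔ ¬ (b ∈ S ↔ M.e (m b) b ∈ T) := by
    intro b
    simp [D]
  have memP : ∀ b j, (b, j) ∈ P ↔ b ∈ D ∧ j ≠ m b := by
    intro b j
    simp [P]
  have hPcard : P.card = 2 * D.card := by
    rw [Finset.card_filter, Fintype.sum_prod_type]
    have e0 : ∀ b, ∑ j : Fin 3, (if (b, j).1 ∈ D ∧ (b, j).2 ≠ m (b, j).1 then 1 else 0) =
        2 * (if b ∈ D then 1 else 0) := by
      intro b
      rw [sum_three _ (m b)]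
      by_cases hb : b ∈ D
      · rw [if_neg (fun h => h.2 rfl), if_pos ⟨hb, fne1 _⟩, if_pos ⟨hb, fne2 _⟩, if_pos hb]
      · rw [if_neg (fun h => hb h.1), if_neg (fun h => hb h.1), if_neg (fun h => hb h.1),
          if_neg hb]
    simp_rw [e0]
    rw [← Finset.mul_sum]
    congr 1
    rw [← Finset.card_filter]
    congr 1
    ext b
    simp
  -- consistency of a black vertex with an edge which is not a boundary edge
  have hcons : ∀ b k, (k = m b → b ∉ D) → (b ∈ S ↔ M.e k b ∈ T) := by
    intro b k hk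
    by_cases hkm : k = m b
    · have := hk hkm
      rw [memD, not_not] at this
      rw [hkm]
      exact this
    · exact hcl b k hkm
  have hfib : ∀ v ∈ bd, 2 ≤ (P.filter (fun x => cc x = v)).card := by
    intro v hv
    by_contra hlt
    have hle : (P.filter (fun x => cc x = v)).card ≤ 1 := by omega
    rw [Finset.card_le_one] at hle
    obtain ⟨⟨b₁, j⟩, hx, hxv⟩ := Finset.mem_image.1 hv
    have hxv' : M.c j b₁ = v := hxv
    have hb₁ := (memP b₁ j).1 hx
    have huniq : ∀ b, b ∈ D → M.c j b = v → j ≠ m b → b = b₁ := by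
      intro b hb hbv hjb
      have := hle (b, j) (Finset.mem_filter.2 ⟨(memP b j).2 ⟨hb, hjb⟩, hbv⟩) (b₁, j)
        (Finset.mem_filter.2 ⟨hx, hxv⟩)
      exact congrArg Prod.fst this
    let A : Finset B := univ.filter (fun b => M.c j b = v)
    let p : B → ℤ := fun b => if b ∈ S then 1 else 0
    let q : W → ℤ := fun w => if w ∈ T then 1 else 0
    have hδ : ∀ b k, (b ∈ S ↔ M.e k b ∈ T) → p b - q (M.e k b) = 0 := by
      intro b k hbk
      show (if b ∈ S then (1 : ℤ) else 0) - (if M.e k b ∈ T then 1 else 0) = 0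
      by_cases hb : b ∈ S
      · rw [if_pos hb, if_pos (hbk.1 hb)]; ring
      · rw [if_neg hb, if_neg (fun h => hb (hbk.2 h))]; ring
    have hδ' : ∀ b k, ¬ (b ∈ S ↔ M.e k b ∈ T) → p b - q (M.e k b) ≠ 0 := by
      intro b k hbk
      show (if b ∈ S then (1 : ℤ) else 0) - (if M.e k b ∈ T then 1 else 0) ≠ 0
      by_cases hb : b ∈ S
      · rw [if_pos hb, if_neg (fun h => hbk ⟨fun _ => h, fun _ => hb⟩)]; norm_num
      · rw [if_neg hb, if_pos (by
          by_contra h
          exact hbk ⟨fun h' => absurd h' hb, fun h' => absurd h' h⟩)]; norm_num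
    have hrot : ∑ b ∈ A, (p b - q (M.e (j + 1) b)) = ∑ b ∈ A, (p b - q (M.e (j + 2) b)) := by
      rw [Finset.sum_sub_distrib, Finset.sum_sub_distrib]
      congr 1
      rw [Finset.sum_filter, Finset.sum_filter]
      rw [← Equiv.sum_comp (M.rho j)]
      apply Finset.sum_congr rfl
      intro b _
      rw [M.c_rho, M.e_rho]
    have hone : ∀ k, k ≠ j → m b₁ = k → ∑ b ∈ A, (p b - q (M.e k b)) ≠ 0 := by
      intro k hk hmk
      rw [Finset.sum_eq_single_of_mem b₁ (Finset.mem_filter.2 ⟨Finset.mem_univ _, hxv'⟩)]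
      · apply hδ'
        have := (memD b₁).1 hb₁.1
        rw [hmk] at this
        exact this
      · intro b hbA hbne
        apply hδ
        apply hcons
        intro hkm hbD
        apply hbne
        apply huniq b hbD (Finset.mem_filter.1 hbA).2
        rw [← hkm]
        exact hk.symm
    have hzero : ∀ k, k ≠ j → m b₁ ≠ k → ∑ b ∈ A, (p b - q (M.e k b)) = 0 := by
      intro k hk hmk
      apply Finset.sum_eq_zero
      intro b hbA
      apply hδ
      apply hcons
      intro hkm hbD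
      have := huniq b hbD (Finset.mem_filter.1 hbA).2 (by rw [← hkm]; exact hk.symm)
      rw [this] at hkm
      exact hmk hkm.symm
    rcases fcase (m b₁) j with hc | hc | hc
    · exact hb₁.2 hc.symm
    · exact hone (j + 1) (fne1 j) hc (hrot.trans (hzero (j + 2) (fne2 j) (by
        rw [hc]; exact fne12 j)))
    · exact hone (j + 2) (fne2 j) hc (hrot.symm.trans (hzero (j + 1) (fne1 j) (by
        rw [hc]; exact fne21 j)))
  have h2bd : 2 * bd.card ≤ P.card := by
    rw [Finset.card_eq_sum_card_image cc P]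
    calc 2 * bd.card = ∑ _v ∈ bd, 2 := by rw [Finset.sum_const, smul_eq_mul, mul_comm]
      _ ≤ _ := Finset.sum_le_sum hfib
  let own : B → V := fun b => M.c (f b) b
  have hsub : D.image own ⊆ bd := by
    intro v hv
    obtain ⟨b, hb, rfl⟩ := Finset.mem_image.1 hv
    exact Finset.mem_image.2 ⟨(b, f b), (memP b (f b)).2 ⟨hb, hfm b⟩, rfl⟩
  have hDc : (D.image own).card = D.card := Finset.card_image_of_injective _ hown
  have heq : D.image own = bd := Finset.eq_of_subset_of_card_le hsub (by omega)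
  -- (4) faces off the boundary
  have hint : ∀ v j b, v ∉ bd → M.c j b = v → b ∈ S → v ∈ intF M S T := by
    intro v j b hv hb hbS
    have hk : ∀ b' k, M.c j b' = v → k ≠ j → (b' ∈ S ↔ M.e k b' ∈ T) := by
      intro b' k hb' hkj
      apply hcons
      intro hkm hbD
      apply hv
      exact Finset.mem_image.2 ⟨(b', j), (memP b' j).2 ⟨hbD, by rw [← hkm]; exact hkj.symm⟩, hb'⟩
    have hall : ∀ x y, Relation.EqvGen (fun x y => M.e (j + 1) y = M.e (j + 2) x) x y →
        M.c j x = v → (x ∈ S ↔ y ∈ S) := by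
      intro x y hxy
      induction hxy with
      | rel x y h =>
        intro hx
        have hy : M.c j y = v := (M.step _ _ _ h).trans hx
        rw [hk x (j + 2) hx (fne2 j), hk y (j + 1) hy (fne1 j), h]
      | refl x => intro _; rfl
      | symm x y h ih =>
        intro hy
        exact (ih ((M.c_of_eqvGen h).trans hy)).symm
      | trans x y z hxy _ ih1 ih2 =>
        intro hx
        exact (ih1 hx).trans (ih2 ((M.c_of_eqvGen hxy).symm.trans hx))
    intro j' b' hb'
    have hjj : j' = j := M.cls _ _ b' b (hb'.trans hb.symm)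
    subst hjj
    have hbS' : b' ∈ S := (hall b b' (M.exact _ _ _ (hb.trans hb'.symm)) hb).1 hbS
    exact ⟨hbS', (hk b' (j' + 1) hb' (fne1 _)).1 hbS', (hk b' (j' + 2) hb' (fne2 _)).1 hbS'⟩
  -- (5) many interior faces
  have hnotbd : ∀ v, (∀ b, own b ≠ v) → v ∉ bd := by
    intro v hv hvb
    rw [← heq] at hvb
    obtain ⟨b, _, hb⟩ := Finset.mem_image.1 hvb
    exact hv b hb
  have hr1' : r₁ ∈ intF M S T := by
    obtain ⟨j, hj⟩ := hr1
    exact hint r₁ j b₀ (hnotbd r₁ h1) hj hb₀
  have hr2' : r₂ ∈ intF M S T := by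
    obtain ⟨j, hj⟩ := hr2
    exact hint r₂ j b₀ (hnotbd r₂ h2) hj hb₀
  let X : Finset B := univ.filter (fun b => b ∈ S ∧ M.e (m b) b ∈ T)
  have hXint : ∀ b ∈ X, own b ∈ intF M S T := by
    intro b hb
    obtain ⟨hbS, hbT⟩ := (Finset.mem_filter.1 hb).2
    refine hint (own b) (f b) b ?_ rfl hbS
    intro hbd
    rw [← heq] at hbd
    obtain ⟨b', hb', hbb⟩ := Finset.mem_image.1 hbd
    have : b' = b := hown hbb
    subst this
    exact (memD b').1 hb' ⟨fun _ => hbT, fun _ => hbS⟩
  have hsub2 : insert r₁ (insert r₂ (X.image own)) ⊆ univ.filter (· ∈ intF M S T) := by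
    intro v hv
    rw [Finset.mem_insert, Finset.mem_insert] at hv
    refine Finset.mem_filter.2 ⟨Finset.mem_univ _, ?_⟩
    rcases hv with rfl | rfl | hv
    · exact hr1'
    · exact hr2'
    · obtain ⟨b, hb, rfl⟩ := Finset.mem_image.1 hv
      exact hXint b hb
  have hcard2 := Finset.card_le_card hsub2
  have hn2 : r₂ ∉ X.image own := by
    intro h
    obtain ⟨b, _, hb⟩ := Finset.mem_image.1 h
    exact h2 b hb
  have hn1 : r₁ ∉ insert r₂ (X.image own) := by
    intro h
    rw [Finset.mem_insert] at h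
    rcases h with h | h
    · exact hr h
    · obtain ⟨b, _, hb⟩ := Finset.mem_image.1 h
      exact h1 b hb
  rw [Finset.card_insert_of_notMem hn1, Finset.card_insert_of_notMem hn2,
    Finset.card_image_of_injective _ hown] at hcard2
  rw [ncard_filter (intF M S T), ncard_filter S, ncard_filter T, hE] at heul
  have hXe : X.card = eX := rfl
  omega

/-- The complement of the perfect matching is a Hamiltonian cycle. -/
theorem hamM_of_own [Fintype B] [Fintype W] [Fintype V] (M : PMap B W V) (hM : M.Conn)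
    (m : B → Fin 3) (hm : Function.Bijective (fun b => M.e (m b) b))
    (f : B → Fin 3) (hfm : ∀ b, f b ≠ m b) (hown : Function.Injective (fun b => M.c (f b) b))
    (b₀ : B) (r₁ r₂ : V) (hr : r₁ ≠ r₂) (hr1 : ∃ j, M.c j b₀ = r₁) (hr2 : ∃ j, M.c j b₀ = r₂)
    (h1 : ∀ b, M.c (f b) b ≠ r₁) (h2 : ∀ b, M.c (f b) b ≠ r₂) : Bz.HamM M m := by
  refine ⟨hm, ?_⟩
  let S : Set B := {b | Relation.EqvGen (stepR M m) (Sum.inl b₀) (Sum.inl b)}
  let T : Set W := {w | Relation.EqvGen (stepR M m) (Sum.inl b₀) (Sum.inr w)}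
  have hst : ∀ b j, j ≠ m b → Relation.EqvGen (stepR M m) (Sum.inl b) (Sum.inr (M.e j b)) :=
    fun b j hj => Relation.EqvGen.rel _ _ ⟨b, j, hj, rfl, rfl⟩
  have hcl : ∀ b j, j ≠ m b → (b ∈ S ↔ M.e j b ∈ T) := by
    intro b j hj
    constructor
    · intro h
      exact Relation.EqvGen.trans _ _ _ h (hst b j hj)
    · intro h
      exact Relation.EqvGen.trans _ _ _ h (Relation.EqvGen.symm _ _ (hst b j hj))
  have hcn : ∀ (p : B → ℚ) (q : W → ℚ), (∀ b j, b ∈ S → M.e j b ∈ T → p b = q (M.e j b)) →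
      ∃ c, (∀ b ∈ S, p b = c) ∧ ∀ w ∈ T, q w = c := by
    intro p q hpq
    have key : ∀ x y, Relation.EqvGen (stepR M m) x y →
        Relation.EqvGen (stepR M m) (Sum.inl b₀) x → Sum.elim p q x = Sum.elim p q y := by
      intro x y hxy
      induction hxy with
      | rel x y h =>
        obtain ⟨b, j, hj, rfl, rfl⟩ := h
        intro hx
        exact hpq b j hx (Relation.EqvGen.trans _ _ _ hx (hst b j hj))
      | refl x => intro _; rfl
      | symm x y h ih =>
        intro hy
        exact (ih (Relation.EqvGen.trans _ _ _ hy (Relation.EqvGen.symm _ _ h))).symm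
      | trans x y z hxy _ ih1 ih2 =>
        intro hx
        exact (ih1 hx).trans (ih2 (Relation.EqvGen.trans _ _ _ hx hxy))
    refine ⟨p b₀, ?_, ?_⟩
    · intro b hb
      exact (key _ _ hb (Relation.EqvGen.refl _)).symm
    · intro w hw
      exact (key _ _ hw (Relation.EqvGen.refl _)).symm
  have hall := count_main M hM m hm f hfm hown b₀ r₁ r₂ hr hr1 hr2 h1 h2 S T hcl
    (Relation.EqvGen.refl _) hcn
  -- every closed set is everything
  intro S' T' hcl' hne b
  have hinv : ∀ x y, Relation.EqvGen (stepR M m) x y →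
      ((Sum.elim (· ∈ S') (· ∈ T') x) ↔ (Sum.elim (· ∈ S') (· ∈ T') y)) := by
    intro x y hxy
    induction hxy with
    | rel x y h =>
      obtain ⟨b, j, hj, rfl, rfl⟩ := h
      exact hcl' b j hj
    | refl x => rfl
    | symm x y _ ih => exact ih.symm
    | trans x y z _ _ ih1 ih2 => exact ih1.trans ih2
  obtain ⟨b1, hb1⟩ := hne
  have hb1' : b1 ∈ S := by rw [hall.1]; trivial
  have hb' : b ∈ S := by rw [hall.1]; trivial
  exact (hinv _ _ hb').1 ((hinv _ _ hb1').2 hb1)

end Vale.Agent.P039.H192
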