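import Vale.Agent.P039.Bn.Defs
import Mathlib.LinearAlgebra.Dimension.Finite
import Mathlib.LinearAlgebra.FiniteDimensional.Lemmas
import Mathlib.LinearAlgebra.Pi
import Mathlib.Data.Rat.Cast.Order
import Mathlib.Data.Set.Card
import Mathlib.Tactic.Linarith
import Mathlib.Tactic.Ring
import Mathlib.Tactic.Positivity
import Mathlib.LinearAlgebra.Dimension.Constructions

/-! The Euler inequality for a connected part of a plane (or any) map: faces inside the part are
independent cycles. -/

namespace Vale.Agent.P039.H192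

open Finset Vale.Agent.P039.Bn

variable {B W V : Type}

/-- The faces all of whose corners are in `(S, T)`. -/
def intF (M : PMap B W V) (S : Set B) (T : Set W) : Set V :=
  {v | ∀ j b, M.c j b = v → b ∈ S ∧ M.e (j + 1) b ∈ T ∧ M.e (j + 2) b ∈ T}

/-- The edges with both ends in `(S, T)`. -/
def inE (M : PMap B W V) (S : Set B) (T : Set W) : Set (B × Fin 3) :=
  {x | x.1 ∈ S ∧ M.e x.2 x.1 ∈ T}

/-- A function on the faces whose values at the three corners of every black triangle agree is
constant. -/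
theorem const_of_corner (M : PMap B W V) (hM : M.Conn) (φ : V → ℚ)
    (h : ∀ b j, φ (M.c (j + 1) b) = φ (M.c (j + 2) b)) (v v' : V) : φ v = φ v' := by
  have h0 : ∀ b j, φ (M.c j b) = φ (M.c 0 b) := by
    intro b j
    have h1 := h b 0
    have h2 := h b 1
    have h3 := h b 2
    have e1 : (0 : Fin 3) + 1 = 1 := by decide
    have e2 : (0 : Fin 3) + 2 = 2 := by decide
    have e3 : (1 : Fin 3) + 1 = 2 := by decide
    have e4 : (1 : Fin 3) + 2 = 0 := by decide
    have e5 : (2 : Fin 3) + 1 = 0 := by decide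
    have e6 : (2 : Fin 3) + 2 = 1 := by decide
    rw [e1, e2] at h1
    rw [e3, e4] at h2
    rw [e5, e6] at h3
    fin_cases j
    · rfl
    · exact h3.symm
    · exact h2
  have h1 : ∀ b b', φ (M.c 0 b) = φ (M.c 0 b') := by
    intro b b'
    have := hM b b'
    induction this with
    | rel x y hxy =>
      obtain ⟨j, hj⟩ := hxy
      rw [← h0 x j, ← h0 y j, hj]
    | refl x => rfl
    | symm x y _ ih => exact ih.symm
    | trans x y z _ _ ih1 ih2 => exact ih1.trans ih2
  obtain ⟨j, b, rfl⟩ := M.surj v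
  obtain ⟨j', b', rfl⟩ := M.surj v'
  rw [h0 b j, h0 b' j', h1 b b']

theorem euler_sub [Fintype B] [Fintype W] [Fintype V] (M : PMap B W V) (hM : M.Conn)
    (S : Set B) (T : Set W)
    (hcn : ∀ (p : B → ℚ) (q : W → ℚ), (∀ b j, b ∈ S → M.e j b ∈ T → p b = q (M.e j b)) →
      ∃ c, (∀ b ∈ S, p b = c) ∧ ∀ w ∈ T, q w = c)
    (hne : S ≠ Set.univ ∨ T ≠ Set.univ) :
    (intF M S T).ncard + (S.ncard + T.ncard) ≤ (inE M S T).ncard + 1 := by
  classical
  -- extension by zero
  let ex : ∀ {α : Type} (A : Set α), (A → ℚ) →ₗ[ℚ] (α → ℚ) := fun {α} A =>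
    { toFun := fun φ a => if h : a ∈ A then φ ⟨a, h⟩ else 0
      map_add' := by
        intro φ ψ
        ext a
        by_cases h : a ∈ A <;> simp [h]
      map_smul' := by
        intro c φ
        ext a
        by_cases h : a ∈ A <;> simp [h] }
  have exin : ∀ {α : Type} (A : Set α) (φ : A → ℚ) (a : α) (h : a ∈ A), ex A φ a = φ ⟨a, h⟩ := by
    intro α A φ a h
    simp [ex, h]
  have exout : ∀ {α : Type} (A : Set α) (φ : A → ℚ) (a : α) (_ : a ∉ A), ex A φ a = 0 := by
    intro α A φ a h
    simp [ex, h]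
  let I := intF M S T
  let E := inE M S T
  let Ψ : ((I → ℚ) × ((S → ℚ) × (T → ℚ))) →ₗ[ℚ] (E → ℚ) :=
    { toFun := fun z x => ex I z.1 (M.c (x.1.2 + 1) x.1.1) - ex I z.1 (M.c (x.1.2 + 2) x.1.1) +
        (ex S z.2.1 x.1.1 + ex T z.2.2 (M.e x.1.2 x.1.1))
      map_add' := by
        intro z z'
        ext x
        simp only [Prod.fst_add, Prod.snd_add, map_add, Pi.add_apply]
        ring
      map_smul' := by
        intro c z
        ext x
        simp only [Prod.smul_fst, Prod.smul_snd, map_smul, Pi.smul_apply, smul_eq_mul,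
          RingHom.id_apply]
        ring }
  have hΨ : ∀ z x, Ψ z x = ex I z.1 (M.c (x.1.2 + 1) x.1.1) - ex I z.1 (M.c (x.1.2 + 2) x.1.1) +
        (ex S z.2.1 x.1.1 + ex T z.2.2 (M.e x.1.2 x.1.1)) := fun z x => rfl
  -- the kernel has dimension at most one
  have hk0 : ((0 : I → ℚ), ((fun _ => 1 : S → ℚ), (fun _ => -1 : T → ℚ))) ∈ LinearMap.ker Ψ := by
    rw [LinearMap.mem_ker]
    ext x
    rw [hΨ]
    have h1 : x.1.1 ∈ S := x.2.1
    have h2 : M.e x.1.2 x.1.1 ∈ T := x.2.2
    simp only [map_zero, Pi.zero_apply]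
    rw [exin S _ _ h1, exin T _ _ h2]
    ring
  have hker : ∀ z ∈ LinearMap.ker Ψ,
      ∃ c : ℚ, c • ((0 : I → ℚ), ((fun _ => 1 : S → ℚ), (fun _ => -1 : T → ℚ))) = z := by
    intro z hz
    rw [LinearMap.mem_ker] at hz
    have hz' : ∀ x : E, ex I z.1 (M.c (x.1.2 + 1) x.1.1) - ex I z.1 (M.c (x.1.2 + 2) x.1.1) +
        (ex S z.2.1 x.1.1 + ex T z.2.2 (M.e x.1.2 x.1.1)) = 0 := by
      intro x
      rw [← hΨ, hz]
      rfl
    set φ : V → ℚ := ex I z.1 with hφ
    set p : B → ℚ := ex S z.2.1 with hp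
    set q : W → ℚ := ex T z.2.2 with hq
    -- `y` vanishes outside `E`
    have hy0 : ∀ b j, (b, j) ∉ E → φ (M.c (j + 1) b) = 0 ∧ φ (M.c (j + 2) b) = 0 := by
      intro b j hbj
      constructor
      · apply exout
        intro hv
        have := hv (j + 1) b rfl
        rw [f11, f12] at this
        exact hbj ⟨this.1, this.2.2⟩
      · apply exout
        intro hv
        have := hv (j + 2) b rfl
        rw [f21, f22] at this
        exact hbj ⟨this.1, this.2.1⟩
    let y : B → Fin 3 → ℚ := fun b j => φ (M.c (j + 1) b) - φ (M.c (j + 2) b)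
    have hyy : ∀ b j, y b j * y b j = - (y b j * (p b + q (M.e j b))) := by
      intro b j
      by_cases hbj : (b, j) ∈ E
      · have := hz' ⟨(b, j), hbj⟩
        have h1 : y b j + (p b + q (M.e j b)) = 0 := this
        have h2 : y b j = - (p b + q (M.e j b)) := by linarith
        calc y b j * y b j = y b j * (- (p b + q (M.e j b))) := by rw [← h2]
          _ = _ := by ring
      · have h1 := hy0 b j hbj
        have h2 : y b j = 0 := by
          show φ (M.c (j + 1) b) - φ (M.c (j + 2) b) = 0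
          rw [h1.1, h1.2]
          ring
        rw [h2]
        ring
    have hsum1 : ∀ b, ∑ j, y b j = 0 := by
      intro b
      rw [Fin.sum_univ_three]
      show φ (M.c (0 + 1) b) - φ (M.c (0 + 2) b) + (φ (M.c (1 + 1) b) - φ (M.c (1 + 2) b)) +
        (φ (M.c (2 + 1) b) - φ (M.c (2 + 2) b)) = 0
      have e1 : (0 : Fin 3) + 1 = 1 := by decide
      have e2 : (0 : Fin 3) + 2 = 2 := by decide
      have e3 : (1 : Fin 3) + 1 = 2 := by decide
      have e4 : (1 : Fin 3) + 2 = 0 := by decide
      have e5 : (2 : Fin 3) + 1 = 0 := by decide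
      have e6 : (2 : Fin 3) + 2 = 1 := by decide
      rw [e1, e2, e3, e4, e5, e6]
      ring
    have hsum2 : ∀ w, ∑ j, y ((M.e j).symm w) j = 0 := by
      intro w
      have hh : ∀ j, y ((M.e j).symm w) j = φ (M.cw (j + 1) w) - φ (M.cw (j + 2) w) := by
        intro j
        show φ (M.c (j + 1) ((M.e j).symm w)) - φ (M.c (j + 2) ((M.e j).symm w)) = _
        rw [M.cw_symm (j + 1) j (fne1 j).symm w, M.cw_symm (j + 2) j (fne2 j).symm w]
      simp_rw [hh]
      rw [Fin.sum_univ_three]
      have e1 : (0 : Fin 3) + 1 = 1 := by decide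
      have e2 : (0 : Fin 3) + 2 = 2 := by decide
      have e3 : (1 : Fin 3) + 1 = 2 := by decide
      have e4 : (1 : Fin 3) + 2 = 0 := by decide
      have e5 : (2 : Fin 3) + 1 = 0 := by decide
      have e6 : (2 : Fin 3) + 2 = 1 := by decide
      rw [e1, e2, e3, e4, e5, e6]
      ring
    have hsq : ∑ b, ∑ j, y b j * y b j = 0 := by
      simp_rw [hyy, mul_add, neg_add]
      simp_rw [Finset.sum_add_distrib]
      have h1 : ∑ b, ∑ j, -(y b j * p b) = 0 := by
        apply Finset.sum_eq_zero
        intro b _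
        have : ∀ j, -(y b j * p b) = y b j * (- p b) := by intro j; ring
        simp_rw [this]
        rw [← Finset.sum_mul, hsum1, zero_mul]
      have h2 : ∑ b, ∑ j, -(y b j * q (M.e j b)) = 0 := by
        rw [Finset.sum_comm]
        have : ∀ j, ∑ b, -(y b j * q (M.e j b)) = ∑ w, -(y ((M.e j).symm w) j * q w) := by
          intro j
          rw [← Equiv.sum_comp (M.e j)]
          simp
        simp_rw [this]
        rw [Finset.sum_comm]
        apply Finset.sum_eq_zero
        intro w _
        have : ∀ j, -(y ((M.e j).symm w) j * q w) = y ((M.e j).symm w) j * (- q w) := by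
          intro j; ring
        simp_rw [this]
        rw [← Finset.sum_mul, hsum2, zero_mul]
      rw [h1, h2, add_zero]
    have hyz : ∀ b j, y b j = 0 := by
      intro b j
      have h1 := (Finset.sum_eq_zero_iff_of_nonneg (fun b _ =>
        Finset.sum_nonneg (fun j _ => mul_self_nonneg (y b j)))).1 hsq b (Finset.mem_univ _)
      have h2 := (Finset.sum_eq_zero_iff_of_nonneg (fun j _ =>
        mul_self_nonneg (y b j))).1 h1 j (Finset.mem_univ _)
      exact mul_self_eq_zero.1 h2
    have hconst := const_of_corner M hM φ (fun b j => by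
      have := hyz b j
      have h3 : φ (M.c (j + 1) b) - φ (M.c (j + 2) b) = 0 := this
      linarith)
    have hφ0 : ∀ v, φ v = 0 := by
      obtain ⟨v0, hv0⟩ : ∃ v0, φ v0 = 0 := by
        rcases hne with h | h
        · obtain ⟨b, hb⟩ := (Set.ne_univ_iff_exists_notMem _).1 h
          refine ⟨M.c 0 b, exout _ _ _ ?_⟩
          intro hv
          exact hb (hv 0 b rfl).1
        · obtain ⟨w, hw⟩ := (Set.ne_univ_iff_exists_notMem _).1 h
          refine ⟨M.c 0 ((M.e (0 + 1)).symm w), exout _ _ _ ?_⟩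
          intro hv
          have := (hv 0 _ rfl).2.1
          rw [Equiv.apply_symm_apply] at this
          exact hw this
      intro v
      rw [hconst v v0, hv0]
    have hpq : ∀ b j, b ∈ S → M.e j b ∈ T → p b = (fun w => - q w) (M.e j b) := by
      intro b j hb hw
      have h1 := hz' ⟨(b, j), ⟨hb, hw⟩⟩
      have h2 : φ (M.c (j + 1) b) - φ (M.c (j + 2) b) + (p b + q (M.e j b)) = 0 := h1
      rw [hφ0, hφ0] at h2
      show p b = - q (M.e j b)
      linarith
    obtain ⟨c, hc1, hc2⟩ := hcn p (fun w => - q w) hpq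
    refine ⟨c, ?_⟩
    refine Prod.ext ?_ (Prod.ext ?_ ?_)
    · ext v
      have h1 := hφ0 v.1
      rw [hφ, exin I z.1 v.1 v.2] at h1
      show c • (0 : ℚ) = z.1 v
      rw [smul_zero]
      exact h1.symm
    · ext b
      have h1 := hc1 b.1 b.2
      rw [hp, exin S z.2.1 b.1 b.2] at h1
      show c • (1 : ℚ) = z.2.1 b
      rw [smul_eq_mul, mul_one]
      exact h1.symm
    · ext w
      have h1 := hc2 w.1 w.2
      have h2 : - q w.1 = c := h1
      rw [hq, exin T z.2.2 w.1 w.2] at h2
      show c • (-1 : ℚ) = z.2.2 w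
      rw [smul_eq_mul, mul_neg, mul_one, ← h2, neg_neg]
  have hk1 : Module.finrank ℚ (LinearMap.ker Ψ) ≤ 1 := by
    refine finrank_le_one (⟨_, hk0⟩ : LinearMap.ker Ψ) ?_
    intro z
    obtain ⟨c, hc⟩ := hker z.1 z.2
    exact ⟨c, Subtype.ext hc⟩
  have hr : Module.finrank ℚ (LinearMap.range Ψ) ≤ Module.finrank ℚ (E → ℚ) :=
    Submodule.finrank_le _
  have hd := LinearMap.finrank_range_add_finrank_ker Ψ
  rw [Module.finrank_prod, Module.finrank_prod, Module.finrank_fintype_fun_eq_card,
    Module.finrank_fintype_fun_eq_card, Module.finrank_fintype_fun_eq_card] at hd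
  rw [Module.finrank_fintype_fun_eq_card] at hr
  have c1 : (intF M S T).ncard = Fintype.card I := by
    rw [← Nat.card_coe_set_eq, Nat.card_eq_fintype_card]
  have c2 : S.ncard = Fintype.card S := by
    rw [← Nat.card_coe_set_eq, Nat.card_eq_fintype_card]
  have c3 : T.ncard = Fintype.card T := by
    rw [← Nat.card_coe_set_eq, Nat.card_eq_fintype_card]
  have c4 : (inE M S T).ncard = Fintype.card E := by
    rw [← Nat.card_coe_set_eq, Nat.card_eq_fintype_card]
  rw [c1, c2, c3, c4]
  omega

end Vale.Agent.P039.H192
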